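import Mathlib
import Vale.Agent.P124.Retraction
import Vale.Agent.P124.Example
import Vale.Agent.P124.Shear

/-!
Separable Lindenstrauss spaces are Lipschitz retracts, and Lipschitz self-bijections
do not preserve complementation.
-/

namespace Vale.Agent.Results.P124.LipRetract

open Vale.Agent.P124

theorem result :
    (∀ (Y : Type) (_ : NormedAddCommGroup Y) (_ : NormedSpace ℝ Y) (E : ℕ → Submodule ℝ Y),
      Monotone E → (∀ n, ∃ k : ℕ, Nonempty (E n ≃ₗᵢ[ℝ] (Fin k → ℝ))) →
      ∃ r : Y → Y, LipschitzWith 91 r ∧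
        (∀ y, r y ∈ closure (⋃ n, (E n : Set Y))) ∧
        ∀ x ∈ closure (⋃ n, (E n : Set Y)), r x = x) ∧
    (∃ (Z : Type) (_ : NormedAddCommGroup Z) (_ : NormedSpace ℝ Z),
      CompleteSpace Z ∧ TopologicalSpace.SeparableSpace Z ∧
      ∃ (A B : Submodule ℝ Z) (f : Z ≃ Z),
        IsClosed (A : Set Z) ∧ IsClosed (B : Set Z) ∧
        A.ClosedComplemented ∧ ¬ B.ClosedComplemented ∧
        LipschitzWith 200 f ∧ AntilipschitzWith 200 f ∧
        f '' (A : Set Z) = (B : Set Z) ∧
        (∀ x ∈ A, ∀ y ∈ A, f (x + y) = f x + f y) ∧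
        ∀ (c : ℝ), ∀ x ∈ A, f (c • x) = c • f x) := by
  refine ⟨fun Y _ _ E hE hiso => exists_retraction E hE hiso, ?_⟩
  obtain ⟨r, hrl, hrS, hrx⟩ := exists_retraction (Y := Big) level level_mono level_iso
  rw [← XSub_coe] at hrS hrx
  exact relative_pair XSub (Submodule.isClosed_topologicalClosure _) r hrl hrS hrx
    XSub_not_complemented

end Vale.Agent.Results.P124.LipRetract
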